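import Mathlib

set_option linter.all false

section

open Finset

namespace Vale.Agent.P057.H465

/-- first difference -/
def dl (f : ℕ → ℤ) : ℕ → ℤ := fun j => f (j + 1) - f j

theorem dl_eq : (fwdDiff 1 : (ℕ → ℤ) → (ℕ → ℤ)) = dl := by
  funext f j
  rfl

theorem dvd_iter (m : ℤ) (D : ℕ) : ∀ (K : ℕ) (f : ℕ → ℤ), (∀ j < K, m ∣ f j) →
    ∀ j, j + D < K → m ∣ dl^[D] f j := by
  induction D with
  | zero =>
    intro K f h j hj
    exact h j (by omega)
  | succ D ih =>
    intro K f h j hj
    rw [Function.iterate_succ_apply]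
    exact ih (K - 1) (dl f) (fun i hi => dvd_sub (h _ (by omega)) (h _ (by omega))) j (by omega)

theorem abs_iter (D : ℕ) : ∀ (K : ℕ) (f : ℕ → ℤ) (B : ℤ), (∀ j < K, |f j| ≤ B) →
    ∀ j, j + D < K → |dl^[D] f j| ≤ 2 ^ D * B := by
  induction D with
  | zero =>
    intro K f B h j hj
    simpa using h j (by omega)
  | succ D ih =>
    intro K f B h j hj
    rw [Function.iterate_succ_apply]
    have := ih (K - 1) (dl f) (2 * B) (fun i hi => by
      have h1 := h (i + 1) (by omega)
      have h2 := h i (by omega)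
      have h3 : |f (i + 1) - f i| ≤ |f (i + 1)| + |f i| := abs_sub _ _
      show |f (i + 1) - f i| ≤ 2 * B
      linarith) j (by omega)
    rw [pow_succ]
    linarith

theorem congr_iter (D : ℕ) : ∀ (K : ℕ) (f g : ℕ → ℤ), (∀ j < K, f j = g j) →
    ∀ j, j + D < K → dl^[D] f j = dl^[D] g j := by
  induction D with
  | zero =>
    intro K f g h j hj
    exact h j (by omega)
  | succ D ih =>
    intro K f g h j hj
    rw [Function.iterate_succ_apply, Function.iterate_succ_apply]
    exact ih (K - 1) (dl f) (dl g) (fun i hi => by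
      show f (i + 1) - f i = g (i + 1) - g i
      rw [h _ (by omega), h _ (by omega)]) j (by omega)

theorem zero_iter (D : ℕ) : ∀ (f : ℕ → ℤ), (∀ j, f j = 0) → ∀ j, dl^[D] f j = 0 := by
  induction D with
  | zero =>
    intro f h j
    exact h j
  | succ D ih =>
    intro f h j
    rw [Function.iterate_succ_apply]
    exact ih (dl f) (fun i => by
      show f (i + 1) - f i = 0
      rw [h, h, sub_zero]) j

theorem lin_iter (D : ℕ) (c : ℤ) : ∀ (f g : ℕ → ℤ) (j : ℕ),
    dl^[D] (fun i => c * f i + g i) j = c * dl^[D] f j + dl^[D] g j := by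
  induction D with
  | zero =>
    intro f g j
    rfl
  | succ D ih =>
    intro f g j
    rw [Function.iterate_succ_apply, Function.iterate_succ_apply, Function.iterate_succ_apply,
      ← ih]
    refine congrArg (fun f => dl^[D] f j) (funext fun i => ?_)
    show c * f (i + 1) + g (i + 1) - (c * f i + g i) = c * (f (i + 1) - f i) + (g (i + 1) - g i)
    ring

theorem sum_iter (D : ℕ) (s : Finset ℕ) : ∀ (F : ℕ → ℕ → ℤ) (j : ℕ),
    dl^[D] (fun i => ∑ l ∈ s, F l i) j = ∑ l ∈ s, dl^[D] (F l) j := by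
  induction D with
  | zero =>
    intro F j
    rfl
  | succ D ih =>
    intro F j
    rw [Function.iterate_succ_apply]
    simp only [Function.iterate_succ_apply]
    rw [← ih]
    refine congrArg (fun f => dl^[D] f j) (funext fun i => ?_)
    show (∑ l ∈ s, F l (i + 1)) - ∑ l ∈ s, F l i = ∑ l ∈ s, (F l (i + 1) - F l i)
    rw [Finset.sum_sub_distrib]

theorem shift_iter (D : ℕ) (a : ℕ) : ∀ (f : ℕ → ℤ) (j : ℕ),
    dl^[D] (fun i => f (i + a)) j = dl^[D] f (j + a) := by
  induction D with
  | zero =>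
    intro f j
    rfl
  | succ D ih =>
    intro f j
    rw [Function.iterate_succ_apply, Function.iterate_succ_apply, ← ih]
    refine congrArg (fun f => dl^[D] f j) (funext fun i => ?_)
    show f (i + 1 + a) - f (i + a) = f (i + a + 1) - f (i + a)
    rw [show i + 1 + a = i + a + 1 by ring]

theorem tele (f : ℕ → ℤ) (j N : ℕ) : f (j + N) - f j = ∑ i ∈ range N, dl f (j + i) := by
  have h := Finset.sum_range_sub (fun i => f (j + i)) N
  simp only [Nat.add_zero] at h
  rw [← h]
  apply Finset.sum_congr rfl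
  intro i _
  rfl

theorem ext_iter (e : ℕ) : ∀ (K : ℕ) (a : ℕ → ℤ), (∀ j, j + e < K → dl^[e] a j = 0) →
    ∃ a' : ℕ → ℤ, (∀ j, dl^[e] a' j = 0) ∧ ∀ j < K, a' j = a j := by
  induction e with
  | zero =>
    intro K a h
    exact ⟨fun _ => 0, fun _ => rfl, fun j hj => (h j (by omega)).symm⟩
  | succ e ih =>
    intro K a h
    obtain ⟨b, hb1, hb2⟩ := ih (K - 1) (dl a) (fun j hj => by
      have := h j (by omega)
      rwa [Function.iterate_succ_apply] at this)
    refine ⟨fun j => a 0 + ∑ i ∈ range j, b i, ?_, ?_⟩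
    · intro j
      rw [Function.iterate_succ_apply]
      have e1 : dl (fun j => a 0 + ∑ i ∈ range j, b i) = b := by
        funext i
        show (a 0 + ∑ l ∈ range (i + 1), b l) - (a 0 + ∑ l ∈ range i, b l) = b i
        rw [Finset.sum_range_succ]
        ring
      rw [e1]
      exact hb1 j
    · intro j
      induction j with
      | zero =>
        intro _
        simp
      | succ j ihj =>
        intro hj
        have h1 := ihj (by omega)
        have h2 := hb2 j (by omega)
        simp only [Finset.sum_range_succ] at h1 ⊢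
        have h3 : dl a j = a (j + 1) - a j := rfl
        linarith

theorem anti_iter (N : ℕ) (e : ℕ) : ∀ g : ℕ → ℤ, (∀ j, dl^[e] g j = 0) →
    ∃ P : ℕ → ℤ, (∀ j, dl^[e + 1] P j = 0) ∧ ∀ j, P (j + N) - P j = (N : ℤ) ^ e * g j := by
  induction e with
  | zero =>
    intro g h
    refine ⟨fun _ => 0, fun j => zero_iter 1 _ (fun _ => rfl) j, fun j => ?_⟩
    have : g j = 0 := h j
    rw [this]
    simp
  | succ e ih =>
    intro g h
    have hg2 : ∀ j, dl^[e] (fun j => ∑ i ∈ range N, ∑ l ∈ range i, dl g (j + l)) j = 0 := by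
      intro j
      rw [sum_iter e (range N) (fun i j => ∑ l ∈ range i, dl g (j + l)) j]
      apply Finset.sum_eq_zero
      intro i _
      rw [sum_iter e (range i) (fun l j => dl g (j + l)) j]
      apply Finset.sum_eq_zero
      intro l _
      rw [shift_iter e l (dl g) j, ← Function.iterate_succ_apply]
      exact h _
    obtain ⟨P2, hP2, hP2'⟩ := ih _ hg2
    have e1 : dl (fun j => ∑ i ∈ range j, g i) = g := by
      funext i
      show (∑ l ∈ range (i + 1), g l) - (∑ l ∈ range i, g l) = g i
      rw [Finset.sum_range_succ]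
      ring
    refine ⟨fun j => (N : ℤ) ^ e * (∑ i ∈ range j, g i) + (-1) * P2 j, ?_, ?_⟩
    · intro j
      have h1 := lin_iter (e + 1 + 1) ((N : ℤ) ^ e) (fun j => ∑ i ∈ range j, g i)
        (fun j => (-1) * P2 j) j
      have h2 := lin_iter (e + 1 + 1) (-1) P2 (fun _ => 0) j
      simp only [add_zero] at h2
      have h3 : dl^[e + 1 + 1] P2 j = 0 := by
        rw [Function.iterate_succ_apply']
        show dl^[e + 1] P2 (j + 1) - dl^[e + 1] P2 j = 0
        rw [hP2, hP2, sub_zero]
      have h4 : dl^[e + 1 + 1] (fun j => ∑ i ∈ range j, g i) j = 0 := by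
        rw [Function.iterate_succ_apply, e1]
        exact h j
      have h5 : dl^[e + 1 + 1] (fun _ => (0 : ℤ)) j = 0 := zero_iter _ _ (fun _ => rfl) j
      rw [h1, h2, h3, h4, h5]
      ring
    · intro j
      have h1 := hP2' j
      have h2 : (∑ i ∈ range (j + N), g i) - ∑ i ∈ range j, g i = ∑ i ∈ range N, g (j + i) := by
        rw [Finset.sum_range_add, add_sub_cancel_left]
      have h3 : ∑ i ∈ range N, ∑ l ∈ range i, dl g (j + l) =
          (∑ i ∈ range N, g (j + i)) - N * g j := by
        have : ∀ i ∈ range N, ∑ l ∈ range i, dl g (j + l) = g (j + i) - g j := by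
          intro i _
          rw [tele]
        rw [Finset.sum_congr rfl this, Finset.sum_sub_distrib, Finset.sum_const, Finset.card_range,
          nsmul_eq_mul]
      rw [h3] at h1
      have h4 : (N : ℤ) ^ e * (∑ i ∈ range (j + N), g i) + (-1) * P2 (j + N) -
          ((N : ℤ) ^ e * (∑ i ∈ range j, g i) + (-1) * P2 j) =
          (N : ℤ) ^ e * ((∑ i ∈ range (j + N), g i) - ∑ i ∈ range j, g i) -
            (P2 (j + N) - P2 j) := by ring
      rw [h4, h1, h2, pow_succ]
      ring

theorem mono_step (S : ℕ → ℤ) (c : ℤ) (a b : ℕ) (hab : a ≤ b)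
    (h : ∀ y, a ≤ y → y < b → c * dl S y ≤ 0) : c * S b ≤ c * S a := by
  induction b, hab using Nat.le_induction with
  | base => exact le_rfl
  | succ b hb ih =>
    have h1 := ih (fun y h1 h2 => h y h1 (by omega))
    have h2 := h b hb (by omega)
    have h3 : c * dl S b = c * S (b + 1) - c * S b := by
      show c * (S (b + 1) - S b) = _
      ring
    linarith

theorem rolle (D : ℕ) : ∀ S : ℕ → ℤ, (∀ j, dl^[D] S j = 0) → ∀ (ε : ℤ) (x : ℕ → ℕ),
    (∀ s < D, x s < x (s + 1)) → (∀ s ≤ D, 0 < ε * (-1) ^ s * S (x s)) → False := by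
  induction D with
  | zero =>
    intro S h ε x _ h2
    have h3 := h2 0 le_rfl
    have h4 : S (x 0) = 0 := h _
    rw [h4] at h3
    simp at h3
  | succ D ih =>
    intro S h ε x h1 h2
    have hy : ∀ s, s ≤ D → ∃ y, x s ≤ y ∧ y < x (s + 1) ∧ 0 < (-ε) * (-1) ^ s * dl S y := by
      intro s hs
      by_contra hcon
      push Not at hcon
      have h3 := mono_step S ((-ε) * (-1) ^ s) (x s) (x (s + 1)) (h1 s (by omega)).le hcon
      have h4 := h2 s (by omega)
      have h5 := h2 (s + 1) (by omega)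
      rw [pow_succ] at h5
      nlinarith
    choose! y hy1 hy2 hy3 using hy
    refine ih (dl S) (fun j => ?_) (-ε) y ?_ hy3
    · have := h j
      rwa [Function.iterate_succ_apply] at this
    · intro s hs
      exact lt_of_lt_of_le (hy2 s (by omega)) (hy1 (s + 1) (by omega))

theorem per_iter (N : ℕ) (f : ℕ → ℤ) (hf : ∀ j, f (j + N) = f j) (m j : ℕ) :
    dl^[m] f (j + N) = dl^[m] f j := by
  rw [← shift_iter]
  exact congrArg (fun f => dl^[m] f j) (funext fun i => hf i)

theorem modp (N p : ℕ) (hp : p.Prime) (hpN : ¬ p ∣ N) (m : ℕ) : ∀ f : ℕ → ℤ,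
    (∀ j, f (j + N) = f j) → (∀ j, (p : ℤ) ∣ dl^[m + 1] f j) → ∀ j, (p : ℤ) ∣ dl f j := by
  induction m with
  | zero =>
    intro f _ h j
    exact h j
  | succ m ih =>
    intro f hf h
    apply ih f hf
    have h1 : ∀ j, (p : ℤ) ∣ dl^[m + 1] f j - dl^[m + 1] f 0 := by
      intro j
      induction j with
      | zero => simp
      | succ j ihj =>
        have h2 := h j
        rw [Function.iterate_succ_apply'] at h2
        have h3 : dl (dl^[m + 1] f) j = dl^[m + 1] f (j + 1) - dl^[m + 1] f j := rfl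
        rw [h3] at h2
        have := dvd_add h2 ihj
        rwa [sub_add_sub_cancel] at this
    have h4 : ∑ i ∈ range N, dl^[m + 1] f i = 0 := by
      have h5 := tele (dl^[m] f) 0 N
      rw [per_iter N f hf m 0, sub_self] at h5
      rw [h5]
      apply Finset.sum_congr rfl
      intro i _
      rw [Function.iterate_succ_apply', Nat.zero_add]
    have h6 : (p : ℤ) ∣ (N : ℤ) * dl^[m + 1] f 0 := by
      have h7 : (p : ℤ) ∣ ∑ i ∈ range N, (dl^[m + 1] f i - dl^[m + 1] f 0) :=
        Finset.dvd_sum fun i _ => h1 i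
      rw [Finset.sum_sub_distrib, h4, Finset.sum_const, Finset.card_range, nsmul_eq_mul,
        zero_sub] at h7
      exact (dvd_neg.1 h7)
    have hpz : Prime (p : ℤ) := Nat.prime_iff_prime_int.1 hp
    have h8 : (p : ℤ) ∣ dl^[m + 1] f 0 := by
      rcases hpz.dvd_or_dvd h6 with h9 | h9
      · exact absurd (Int.natCast_dvd_natCast.1 h9) hpN
      · exact h9
    intro j
    have := dvd_add (h1 j) h8
    rwa [sub_add_cancel] at this

theorem pieceC (N D k p h M' : ℕ) (hN : 1 ≤ N) (hp : p.Prime) (hpN : ¬ p ∣ N)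
    (hcop : Nat.Coprime p M') (hdiv : N ^ D ∣ M') (hs : 2 ^ (D + 1) * h < p * M')
    (h2 : 2 * h < p) (hk : N * (D + 2) + D + 2 ≤ k) (u : ℕ → ℤ) (hu : ∀ j < k, |u j| ≤ h)
    (hd : ∀ j, j + (D + 1) < k → (p : ℤ) ∣ (fwdDiff 1)^[D + 1] u j)
    (hper : ∀ j, j + N < k → (M' : ℤ) ∣ u (j + N) - u j) :
    ∀ j, j + (D + 1) < k → (fwdDiff 1)^[D + 1] u j = 0 := by
  rw [dl_eq] at *
  have hNk : N + D + 2 ≤ k := by nlinarith
  have hNk2 : N * (D + 1) + N + D + 2 ≤ k := by nlinarith
  -- step 1
  have hg1 : ∀ j, j + D < k - N → dl^[D] (fun j => u (j + N) - u j) j = 0 := by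
    intro j hj
    have e1 : (fun j => u (j + N) - u j) = fun j => ∑ i ∈ range N, dl u (j + i) := by
      funext j
      exact tele u j N
    have d1 : (p : ℤ) ∣ dl^[D] (fun j => u (j + N) - u j) j := by
      rw [e1, sum_iter D (range N) (fun i j => dl u (j + i)) j]
      apply Finset.dvd_sum
      intro i hi
      rw [Finset.mem_range] at hi
      rw [shift_iter D i (dl u) j, ← Function.iterate_succ_apply]
      exact hd _ (by omega)
    have d2 : (M' : ℤ) ∣ dl^[D] (fun j => u (j + N) - u j) j :=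
      dvd_iter M' D (k - N) _ (fun i hi => hper i (by omega)) j hj
    have d3 : |dl^[D] (fun j => u (j + N) - u j) j| ≤ 2 ^ D * (2 * h) :=
      abs_iter D (k - N) _ (2 * h) (fun i hi => by
        have a1 := hu (i + N) (by omega)
        have a2 := hu i (by omega)
        have a3 : |u (i + N) - u i| ≤ |u (i + N)| + |u i| := abs_sub _ _
        linarith) j hj
    have d4 : ((p : ℤ) * M') ∣ dl^[D] (fun j => u (j + N) - u j) j :=
      (Nat.isCoprime_iff_coprime.2 hcop).mul_dvd d1 d2
    have hsZ : (2 : ℤ) ^ (D + 1) * h < p * M' := by exact_mod_cast hs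
    apply Int.eq_zero_of_abs_lt_dvd d4
    calc _ ≤ 2 ^ D * (2 * (h : ℤ)) := d3
      _ = (2 : ℤ) ^ (D + 1) * h := by ring
      _ < _ := hsZ
  -- step 2
  obtain ⟨B, hB⟩ := hdiv
  have hM0 : (M' : ℤ) ≠ 0 := by
    intro h0
    have : M' = 0 := by exact_mod_cast h0
    rw [this, mul_zero] at hs
    omega
  have hq : ∀ j, j + N < k → (M' : ℤ) * ((u (j + N) - u j) / M') = u (j + N) - u j :=
    fun j hj => Int.mul_ediv_cancel' (hper j hj)
  obtain ⟨g, hgz, hgw⟩ := ext_iter D (k - N) (fun j => (u (j + N) - u j) / M') (by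
    intro j hj
    have c1 := congr_iter D (k - N) (fun j => u (j + N) - u j)
      (fun j => (M' : ℤ) * ((u (j + N) - u j) / M') + 0)
      (fun i hi => by simp only [add_zero]; exact (hq i (by omega)).symm) j hj
    rw [hg1 j hj, lin_iter D (M' : ℤ) (fun j => (u (j + N) - u j) / M') (fun _ => 0) j,
      zero_iter D (fun _ => 0) (fun _ => rfl) j, add_zero] at c1
    exact (mul_eq_zero.1 c1.symm).resolve_left hM0)
  obtain ⟨P, hP1, hP2⟩ := anti_iter N D g hgz
  set Q : ℕ → ℤ := fun j => (B : ℤ) * P j + 0 with hQ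
  have hQ1 : ∀ j, dl^[D + 1] Q j = 0 := by
    intro j
    rw [hQ, lin_iter (D + 1) (B : ℤ) P (fun _ => 0) j, hP1, mul_zero,
      zero_iter (D + 1) (fun _ => 0) (fun _ => rfl) j, add_zero]
  have hQ2 : ∀ j, j + N < k → Q (j + N) - Q j = u (j + N) - u j := by
    intro j hj
    have e1 : Q (j + N) - Q j = B * (P (j + N) - P j) := by
      simp only [hQ]
      ring
    have e2 : (B : ℤ) * (N : ℤ) ^ D = M' := by
      rw [hB]
      push_cast
      ring
    rw [e1, hP2, hgw j (by omega), ← mul_assoc, e2]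
    exact hq j hj
  -- step 3
  have hper1 : ∀ s j, j + N * s < k → u (j + N * s) - Q (j + N * s) = u j - Q j := by
    intro s
    induction s with
    | zero =>
      intro j _
      simp
    | succ s ih =>
      intro j hj
      rw [mul_add, mul_one, ← add_assoc] at hj ⊢
      have h1 := ih j (by omega)
      have h3 := hQ2 (j + N * s) hj
      linarith
  set q : ℕ → ℤ := fun j => u (j % N) - Q (j % N) with hqd
  have hqw : ∀ j < k, q j = u j - Q j := by
    intro j hj
    have h1 := hper1 (j / N) (j % N) (by rw [Nat.mod_add_div]; exact hj)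
    rw [Nat.mod_add_div] at h1
    exact h1.symm
  have hqp : ∀ j, q (j + N) = q j := by
    intro j
    simp only [hqd, Nat.add_mod_right]
  have hu3 : ∀ j < k, u j = 1 * Q j + q j := by
    intro j hj
    rw [hqw j hj]
    ring
  have hdu : ∀ j, j + (D + 1) < k → dl^[D + 1] u j = dl^[D + 1] q j := by
    intro j hj
    rw [congr_iter (D + 1) k u (fun j => 1 * Q j + q j) hu3 j hj, lin_iter (D + 1) 1 Q q j, hQ1]
    ring
  have hqdvd : ∀ j, (p : ℤ) ∣ dl^[D + 1] q j := by
    intro j
    have hpr : Function.Periodic (dl^[D + 1] q) N := fun i => per_iter N q hqp (D + 1) i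
    rw [← hpr.map_mod_nat j]
    have hlt : j % N < N := Nat.mod_lt _ (by omega)
    rw [← hdu (j % N) (by omega)]
    exact hd _ (by omega)
  have hq1 := modp N p hp hpN D q hqp hqdvd
  -- step 4
  have hp0 : (p : ℤ) ≠ 0 := by exact_mod_cast hp.ne_zero
  have hpt : ∀ j, (p : ℤ) * (dl q j / p) = dl q j := fun j => Int.mul_ediv_cancel' (hq1 j)
  have htp : ∀ j, dl q (j + N) = dl q j := fun j => per_iter N q hqp 1 j
  have htz : ∀ j, dl q j = 0 := by
    by_contra hcon
    push Not at hcon
    obtain ⟨j0, hj0⟩ := hcon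
    have hpr : Function.Periodic (dl q) N := fun i => htp i
    have hj1 : dl q (j0 % N) ≠ 0 := by
      rw [hpr.map_mod_nat j0]
      exact hj0
    have hlt : j0 % N < N := Nat.mod_lt _ (by omega)
    have hsum : ∑ i ∈ range N, dl q i = 0 := by
      have h5 := tele q 0 N
      rw [hqp 0, sub_self] at h5
      rw [h5]
      apply Finset.sum_congr rfl
      intro i _
      rw [Nat.zero_add]
    obtain ⟨i2, hi2, hi2'⟩ := Finset.exists_pos_of_sum_zero_of_exists_nonzero (dl q) hsum
      ⟨_, Finset.mem_range.2 hlt, hj1⟩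
    obtain ⟨i1, hi1, hi1'⟩ := Finset.exists_pos_of_sum_zero_of_exists_nonzero
      (fun i => - dl q i) (by rw [Finset.sum_neg_distrib, hsum, neg_zero])
      ⟨_, Finset.mem_range.2 hlt, neg_ne_zero.2 hj1⟩
    rw [Finset.mem_range] at hi1 hi2
    have hs1 : ∀ s, dl q (i1 + N * s) = dl q i1 := by
      intro s
      have := hpr.nat_mul s i1
      rw [← this]
      congr 1
      simp [mul_comm]
    have hs2 : ∀ s, dl q (i2 + N * s) = dl q i2 := by
      intro s
      have := hpr.nat_mul s i2
      rw [← this]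
      congr 1
      simp [mul_comm]
    have hbig : ∀ j, 0 < dl q j → (p : ℤ) ≤ dl q j := by
      intro j hj
      exact Int.le_of_dvd hj (hq1 j)
    have hsml : ∀ j, dl q j < 0 → dl q j ≤ -(p : ℤ) := by
      intro j hj
      have := Int.le_of_dvd (by linarith : 0 < - dl q j) ((dvd_neg).2 (hq1 j))
      linarith
    have h2Z : (2 : ℤ) * h < p := by exact_mod_cast h2
    have hkey : ∀ j, j + 1 < k → |dl Q j + dl q j| ≤ 2 * h := by
      intro j hj
      have e1 : dl Q j + dl q j = u (j + 1) - u j := by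
        show Q (j + 1) - Q j + (q (j + 1) - q j) = _
        rw [hqw (j + 1) hj, hqw j (by omega)]
        ring
      rw [e1]
      have a1 := hu (j + 1) (by omega)
      have a2 := hu j (by omega)
      have a3 : |u (j + 1) - u j| ≤ |u (j + 1)| + |u j| := abs_sub _ _
      linarith
    refine rolle D (dl Q) (fun j => ?_) 1 (fun s => if s % 2 = 0 then i1 + N * s else i2 + N * s)
      ?_ ?_
    · rw [← Function.iterate_succ_apply]
      exact hQ1 j
    · intro s _
      have e1 : N * (s + 1) = N * s + N := by ring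
      simp only [e1]
      split_ifs <;> omega
    · intro s hsD
      have hNs : N * s ≤ N * (D + 1) := Nat.mul_le_mul_left _ (by omega)
      simp only [one_mul]
      split_ifs with hev
      · have e1 : (-1 : ℤ) ^ s = 1 := (Nat.even_iff.2 hev).neg_one_pow
        rw [e1, one_mul]
        have k1 := hkey (i1 + N * s) (by omega)
        rw [hs1 s] at k1
        have k2 := hsml i1 (by linarith)
        have k3 := (abs_le.1 k1).1
        linarith
      · have e1 : (-1 : ℤ) ^ s = -1 := (Nat.odd_iff.2 (by omega)).neg_one_pow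
        rw [e1]
        have k1 := hkey (i2 + N * s) (by omega)
        rw [hs2 s] at k1
        have k2 := hbig i2 hi2'
        have k3 := (abs_le.1 k1).2
        linarith
  intro j hj
  rw [hdu j hj, Function.iterate_succ_apply]
  exact zero_iter D (dl q) htz j

end Vale.Agent.P057.H465
end
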