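import Vale.Agent.P057.H562.Van
import Vale.Agent.P057.H203.NumM
import Vale.Agent.P057.H203.TowFin

set_option linter.all false

section

open Finset

namespace Vale.Agent.P057.H465

open Vale.Agent.P057.Lower Vale.Agent.P057.H562

/-- the block at one level, all parameters chosen -/
theorem cost_lvl (D k v : ℕ) (hv : 2 ≤ v) (hv2 : v ^ 2 ≤ D)
    (hD35 : 9999 ≤ D) (hk : v.factorial * D ^ 9 ≤ k) : Cost k D (6 * D * Real.log v / v) := by
  have hl2 : 0 < Real.log 2 := Real.log_pos (by norm_num)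
  have hvR : (2 : ℝ) ≤ v := by exact_mod_cast hv
  have hv0 : (0 : ℝ) < v := by linarith
  have f1 : Real.log (v.factorial : ℝ) ≤ v * Real.log v := by
    have : (v.factorial : ℝ) ≤ (v : ℝ) ^ v := by exact_mod_cast Nat.factorial_le_pow v
    calc Real.log (v.factorial : ℝ) ≤ Real.log ((v : ℝ) ^ v) :=
          Real.log_le_log (by exact_mod_cast Nat.factorial_pos v) this
      _ = v * Real.log v := by rw [Real.log_pow]
  have hv2R : (v : ℝ) ^ 2 ≤ D := by exact_mod_cast hv2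
  have f0 : Real.log (v.factorial : ℝ) ≤ D := by
    have h1 := Real.log_le_sub_one_of_pos hv0
    nlinarith
  obtain ⟨E, hE⟩ : ∃ E, E = v * (v - 1) / 2 := ⟨_, rfl⟩
  obtain ⟨N, hN⟩ : ∃ N, N = v.factorial := ⟨_, rfl⟩
  have hE0 : 0 < E := by
    rw [hE]
    have : 2 ≤ v * (v - 1) := by
      calc 2 = 2 * 1 := by norm_num
        _ ≤ v * (v - 1) := Nat.mul_le_mul hv (by omega)
    omega
  have hN0 : 0 < N := hN ▸ Nat.factorial_pos v
  have hDE : E ≤ D := by
    have h1 : v * (v - 1) ≤ v ^ 2 := by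
      rw [pow_two]
      exact Nat.mul_le_mul_left _ (by omega)
    omega
  rw [← hN] at hk f0
  have hD35r : (9999 : ℝ) ≤ D := by exact_mod_cast hD35
  obtain ⟨d, hd⟩ : ∃ d, d = (D / E + 1) * E := ⟨_, rfl⟩
  have hd1 : d ≤ 2 * D := by
    rw [hd, add_mul, one_mul]
    have := Nat.div_mul_le_self D E
    omega
  have hdD : D + 1 ≤ d := by
    rw [hd, add_mul, one_mul]
    have h1 := Nat.div_add_mod D E
    have h2 := Nat.mod_lt D hE0
    have h3 : D / E * E = E * (D / E) := Nat.mul_comm _ _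
    omega
  have hd0 : 0 < d := by omega
  have c1 : d < D ^ 9 := by
    calc d ≤ 2 * D := hd1
      _ < D * D := Nat.mul_lt_mul_of_pos_right (by omega) (by omega)
      _ = D ^ 2 := by ring
      _ ≤ D ^ 9 := Nat.pow_le_pow_right (by omega) (by norm_num)
  have c2 : (D ^ 9) ^ (d * d) < 2 ^ (9 * (d * d) * D) := by
    have h1 : D < 2 ^ D := Nat.lt_two_pow_self
    calc (D ^ 9) ^ (d * d) = D ^ (9 * (d * d)) := by rw [← pow_mul]
      _ < (2 ^ D) ^ (9 * (d * d)) := Nat.pow_lt_pow_left h1 (by positivity)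
      _ = 2 ^ (9 * (d * d) * D) := by rw [← pow_mul]; ring_nf
  have c3 : 2 * (d : ℝ) ^ 2 * ((((9 * (d * d) * D : ℕ)) + 1) * Real.log (modu N D)) <
      ((D ^ 9 : ℕ) : ℝ) := by
    have hlog : Real.log (modu N D) ≤ 12 * (D : ℝ) ^ 3 := by
      have h0 := log_modu N D hN0
      have e2 : Real.log N ≤ D := f0
      have e3 : Real.log ((D : ℝ) + 2) ≤ D + 1 := by
        have h3 := Real.log_le_sub_one_of_pos (show (0 : ℝ) < (D : ℝ) + 2 by positivity)
        linarith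
      have e4 : Real.log N + Real.log ((D : ℝ) + 2) + 1 ≤ 3 * D := by linarith
      have e5 : ((D : ℝ) + 2) ^ 2 ≤ 4 * (D : ℝ) ^ 2 := by nlinarith
      calc Real.log (modu N D) ≤ ((D : ℝ) + 2) ^ 2 * (Real.log N + Real.log ((D : ℝ) + 2) + 1) := h0
        _ ≤ ((D : ℝ) + 2) ^ 2 * (3 * D) := mul_le_mul_of_nonneg_left e4 (by positivity)
        _ ≤ (4 * (D : ℝ) ^ 2) * (3 * D) := mul_le_mul_of_nonneg_right e5 (by positivity)
        _ = 12 * (D : ℝ) ^ 3 := by ring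
    have hdr : (d : ℝ) ≤ 2 * D := by exact_mod_cast hd1
    have hd0r : (0 : ℝ) < d := by exact_mod_cast hd0
    have hd2 : (d : ℝ) ^ 2 ≤ 4 * (D : ℝ) ^ 2 := by nlinarith
    have hw : ((9 * (d * d) * D : ℕ) : ℝ) + 1 ≤ 37 * (D : ℝ) ^ 3 := by
      push_cast
      have h1 : (9 : ℝ) * (d * d) * D ≤ 36 * (D : ℝ) ^ 3 := by
        calc (9 : ℝ) * (d * d) * D = 9 * (d : ℝ) ^ 2 * D := by ring
          _ ≤ 9 * (4 * (D : ℝ) ^ 2) * D := by gcongr
          _ = 36 * (D : ℝ) ^ 3 := by ring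
      have h2 : (1 : ℝ) ≤ (D : ℝ) ^ 3 := one_le_pow₀ (by linarith)
      linarith
    have hl0 : 0 ≤ Real.log (modu N D) := Real.log_natCast_nonneg _
    calc 2 * (d : ℝ) ^ 2 * ((((9 * (d * d) * D : ℕ)) + 1) * Real.log (modu N D))
        ≤ 2 * (4 * (D : ℝ) ^ 2) * ((37 * (D : ℝ) ^ 3) * (12 * (D : ℝ) ^ 3)) := by
          gcongr
      _ = 3552 * (D : ℝ) ^ 8 := by ring
      _ < D * (D : ℝ) ^ 8 := by
          apply mul_lt_mul_of_pos_right _ (by positivity)
          linarith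
      _ = ((D ^ 9 : ℕ) : ℝ) := by push_cast; ring
  have c4 : N * D ^ 9 ≤ k := hk
  have c5 : N * (D + 5) ≤ k := by
    refine le_trans (Nat.mul_le_mul_left _ ?_) hk
    calc D + 5 ≤ D * D := by nlinarith
      _ = D ^ 2 := by ring
      _ ≤ D ^ 9 := Nat.pow_le_pow_right (by omega) (by norm_num)
  have hmain : Cost k D (((D / E + 1 : ℕ) : ℝ) * Real.log v.factorial + 2 * Real.log 2) := by
    apply cost_vand v D k (D / E + 1) (D ^ 9) (9 * (d * d) * D) hv
    all_goals try rw [← hE]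
    all_goals try rw [← hN]
    all_goals try rw [← hd]
    all_goals first | exact hdD | exact c4 | exact c5 | exact c1 | exact c2 | exact c3 | omega
  refine Vale.Agent.P057.H203.Cost.mono' hmain ?_
  have hlv : Real.log 2 ≤ Real.log v := Real.log_le_log (by norm_num) hvR
  have hlv0 : 0 < Real.log v := lt_of_lt_of_le hl2 hlv
  have hER : (v : ℝ) ^ 2 / 4 ≤ E := by
    have h3 : (((v * (v - 1) / 2 : ℕ)) : ℝ) = (v : ℝ) * (v - 1) / 2 := by
      rw [Nat.cast_div (Nat.even_mul_pred_self v).two_dvd (by norm_num), Nat.cast_mul,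
        Nat.cast_sub (by omega)]
      norm_num
    rw [hE, h3]
    nlinarith
  have hE0R : (0 : ℝ) < E := by exact_mod_cast hE0
  have hD0R : (0 : ℝ) ≤ D := Nat.cast_nonneg D
  have f2 : ((D / E : ℕ) : ℝ) ≤ 4 * D / v ^ 2 := by
    calc ((D / E : ℕ) : ℝ) ≤ D / E := Nat.cast_div_le
      _ ≤ D / (v ^ 2 / 4) := div_le_div_of_nonneg_left hD0R (by positivity) hER
      _ = 4 * D / v ^ 2 := by field_simp
  have f3 : ((D / E + 1 : ℕ) : ℝ) * Real.log v.factorial ≤
      (4 * D / v ^ 2 + 1) * (v * Real.log v) := by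
    push_cast
    exact mul_le_mul (by linarith) f1 (Real.log_nonneg (by
      exact_mod_cast Nat.factorial_pos v)) (by positivity)
  have f4 : (4 * D / (v : ℝ) ^ 2 + 1) * (v * Real.log v) + 2 * Real.log v ≤
      6 * D * Real.log v / v := by
    rw [div_add_one (by positivity), div_mul_eq_mul_div, div_add' _ _ _ (by positivity),
      div_le_div_iff₀ (by positivity) hv0]
    have g1 : 2 * (v : ℝ) ≤ D := by nlinarith
    have g2 : (4 * (D : ℝ) + v ^ 2) * v + 2 * v ^ 2 ≤ 6 * D * v := by nlinarith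
    have g3 := mul_le_mul_of_nonneg_right g2 (mul_nonneg hlv0.le hv0.le)
    calc ((4 * (D : ℝ) + v ^ 2) * (v * Real.log v) + 2 * Real.log v * v ^ 2) * v
        = ((4 * (D : ℝ) + v ^ 2) * v + 2 * v ^ 2) * (Real.log v * v) := by ring
      _ ≤ 6 * D * v * (Real.log v * v) := g3
      _ = 6 * D * Real.log v * v ^ 2 := by ring
  linarith

/-- the gain at the good levels -/
theorem P1 : ∃ n0 : ℕ, ∀ n, n0 ≤ n → ∀ k : ℕ, 2 ^ (n - 1) < k →
    ∀ j, 2 * Nat.log 2 n + 12 ≤ j → 10 * j ≤ n - 1 →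
      Cost k (2 ^ j) ((Real.sqrt n)⁻¹ * ((2 ^ j : ℕ) : ℝ) * Real.log 2) := by
  have hlo := (isLittleO_log_rpow_atTop (show (0 : ℝ) < 1 / 4 by norm_num)).bound
    (show (0 : ℝ) < 1 / 25 by norm_num)
  rw [Filter.eventually_atTop] at hlo
  obtain ⟨B, hB⟩ := hlo
  obtain ⟨n0, hn0⟩ := exists_nat_ge (max B 1000)
  refine ⟨n0, fun n hn k hk j hj1 hj2 => ?_⟩
  have hnB : B ≤ (n : ℝ) := (le_max_left _ _).trans (hn0.trans (by exact_mod_cast hn))
  have hn1000 : (1000 : ℝ) ≤ n := (le_max_right _ _).trans (hn0.trans (by exact_mod_cast hn))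
  have hn1000' : 1000 ≤ n := by exact_mod_cast hn1000
  have h1 := hB n hnB
  have hnpos : (0 : ℝ) < n := by linarith
  have hx0 : 0 ≤ Real.log n := Real.log_natCast_nonneg n
  rw [Real.norm_eq_abs, Real.norm_eq_abs, abs_of_nonneg hx0,
    abs_of_nonneg (Real.rpow_nonneg hnpos.le _)] at h1
  obtain ⟨x, hx⟩ : ∃ x, x = Real.log n := ⟨_, rfl⟩
  obtain ⟨y, hy⟩ : ∃ y, y = (n : ℝ) ^ ((1 : ℝ) / 4) := ⟨_, rfl⟩
  rw [← hx, ← hy] at h1
  rw [← hx] at hx0
  have hy0 : 0 < y := by rw [hy]; exact Real.rpow_pos_of_pos hnpos _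
  have hy4 : y ^ 4 = n := by
    rw [hy, ← Real.rpow_natCast, ← Real.rpow_mul hnpos.le]
    norm_num
  have hsq : Real.sqrt n = y ^ 2 := by
    rw [← hy4, show y ^ 4 = (y ^ 2) ^ 2 by ring, Real.sqrt_sq (by positivity)]
  have hx1 : 1 ≤ x := by
    rw [hx, Real.le_log_iff_exp_le hnpos]
    have := Real.exp_one_lt_d9
    linarith
  have hy25 : 25 ≤ y := by linarith
  obtain ⟨l, hl⟩ : ∃ l, l = Nat.log 2 n + 1 := ⟨_, rfl⟩
  have hl0 : 0 < l := by omega
  have hlx : (l : ℝ) ≤ 3 * x := by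
    have g1 : 2 ^ (Nat.log 2 n) ≤ n := Nat.pow_log_le_self 2 (by omega)
    have g2 : ((2 : ℝ) ^ (Nat.log 2 n)) ≤ n := by exact_mod_cast g1
    have g3 := Real.log_le_log (by positivity) g2
    rw [Real.log_pow, ← hx] at g3
    have g4 := Real.log_two_gt_d9
    have g5 : (0 : ℝ) ≤ (Nat.log 2 n : ℝ) := Nat.cast_nonneg _
    have g6 : (Nat.log 2 n : ℝ) * 0.6931 ≤ x :=
      le_trans (mul_le_mul_of_nonneg_left (by linarith) g5) g3
    rw [hl]
    push_cast
    linarith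
  obtain ⟨v, hv⟩ : ∃ v, v = (n - 1) / (10 * l) := ⟨_, rfl⟩
  have hv1 : n ≤ 10 * l * (v + 1) := by
    have g1 := Nat.lt_mul_div_succ (n - 1) (b := 10 * l) (by omega)
    rw [← hv] at g1
    omega
  have hv2 : 10 * l * v ≤ n - 1 := by
    rw [hv]
    exact Nat.mul_div_le _ _
  have hv1R : y ^ 4 ≤ 30 * x * (v + 1) := by
    rw [hy4]
    have g1 : (n : ℝ) ≤ 10 * l * (v + 1) := by exact_mod_cast hv1
    have g2 : (0 : ℝ) ≤ (v : ℝ) + 1 := by positivity
    have g3 := mul_le_mul_of_nonneg_right hlx g2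
    linarith
  have hvbig : 100 ≤ (v : ℝ) + 1 := by
    have g1 : 30 * x * ((v : ℝ) + 1) ≤ 30 * (1 / 25 * y) * (v + 1) := by
      apply mul_le_mul_of_nonneg_right _ (by positivity)
      linarith
    have g2 : y ^ 4 ≤ 6 / 5 * y * (v + 1) := by linarith
    have g3 : y * y ^ 3 ≤ y * (6 / 5 * (v + 1)) := by
      calc y * y ^ 3 = y ^ 4 := by ring
        _ ≤ 6 / 5 * y * (v + 1) := g2
        _ = y * (6 / 5 * (v + 1)) := by ring
    have g4 := le_of_mul_le_mul_left g3 hy0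
    have g5 : (25 : ℝ) ^ 3 ≤ y ^ 3 := pow_le_pow_left₀ (by norm_num) hy25 3
    norm_num at g5
    linarith
  have hvR2 : (2 : ℝ) ≤ v := by linarith
  have hvN2 : 2 ≤ v := by exact_mod_cast hvR2
  have hvn : v ≤ n := by
    have : v ≤ 10 * l * v := Nat.le_mul_of_pos_left v (by omega)
    omega
  have hnl : n < 2 ^ l := by
    rw [hl]
    exact Nat.lt_pow_succ_log_self (by norm_num) n
  have hvsq : v ^ 2 ≤ 2 ^ j := by
    calc v ^ 2 ≤ (2 ^ l) ^ 2 := Nat.pow_le_pow_left (by omega) 2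
      _ = 2 ^ (l * 2) := by rw [← pow_mul]
      _ ≤ 2 ^ j := Nat.pow_le_pow_right (by norm_num) (by omega)
  have hD : 9999 ≤ 2 ^ j := by
    have g1 : 1 ≤ Nat.log 2 n := Nat.log_pos (by norm_num) (by omega)
    calc 9999 ≤ 2 ^ 14 := by norm_num
      _ ≤ 2 ^ j := Nat.pow_le_pow_right (by norm_num) (by omega)
  have hfac : v.factorial * (2 ^ j) ^ 9 ≤ k := by
    have g1 : v.factorial ≤ 2 ^ (l * v) := by
      calc v.factorial ≤ v ^ v := Nat.factorial_le_pow v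
        _ ≤ (2 ^ l) ^ v := Nat.pow_le_pow_left (by omega) v
        _ = 2 ^ (l * v) := by rw [← pow_mul]
    calc v.factorial * (2 ^ j) ^ 9 ≤ 2 ^ (l * v) * (2 ^ j) ^ 9 := Nat.mul_le_mul_right _ g1
      _ = 2 ^ (l * v + j * 9) := by rw [← pow_mul, ← pow_add]
      _ ≤ 2 ^ (n - 1) := Nat.pow_le_pow_right (by norm_num) (by
          have : 10 * l * v = 10 * (l * v) := by ring
          omega)
      _ ≤ k := hk.le
  refine Vale.Agent.P057.H203.Cost.mono' (cost_lvl (2 ^ j) k v hvN2 hvsq hD hfac) ?_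
  have hlogv : Real.log v ≤ x := by
    rw [hx]
    exact Real.log_le_log (by linarith) (by exact_mod_cast hvn)
  have hvy : y ^ 4 ≤ 60 * x * v := by
    have g1 : 30 * x * ((v : ℝ) + 1) ≤ 30 * x * (2 * v) :=
      mul_le_mul_of_nonneg_left (by linarith) (by linarith)
    linarith
  have hkey : 6 * Real.log v * y ^ 2 ≤ v * Real.log 2 := by
    have g4 := Real.log_two_gt_d9
    have g6 : 360 * x ^ 2 ≤ 0.6 * y ^ 2 := by
      have e1 : x ^ 2 ≤ (1 / 25 * y) ^ 2 := pow_le_pow_left₀ hx0 h1 2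
      have e2 : (1 / 25 * y) ^ 2 = 1 / 625 * y ^ 2 := by ring
      rw [e2] at e1
      have e3 := sq_nonneg y
      linarith
    have g7 : 6 * x * y ^ 2 * (60 * x) ≤ 0.6 * y ^ 2 * y ^ 2 := by
      calc 6 * x * y ^ 2 * (60 * x) = 360 * x ^ 2 * y ^ 2 := by ring
        _ ≤ 0.6 * y ^ 2 * y ^ 2 := mul_le_mul_of_nonneg_right g6 (sq_nonneg y)
    have g8 : 0.6 * y ^ 2 * y ^ 2 ≤ ((v : ℝ) * 0.6) * (60 * x) := by
      calc 0.6 * y ^ 2 * y ^ 2 = 0.6 * y ^ 4 := by ring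
        _ ≤ 0.6 * (60 * x * v) := by linarith
        _ = ((v : ℝ) * 0.6) * (60 * x) := by ring
    have g9 : 6 * x * y ^ 2 ≤ v * 0.6 :=
      le_of_mul_le_mul_right (g7.trans g8) (by linarith)
    have g10 : 6 * Real.log v * y ^ 2 ≤ 6 * x * y ^ 2 := by
      apply mul_le_mul_of_nonneg_right _ (by positivity)
      linarith
    have g11 : (v : ℝ) * 0.6 ≤ v * Real.log 2 :=
      mul_le_mul_of_nonneg_left (by linarith) (by linarith)
    linarith
  rw [hsq, inv_mul_eq_div, div_mul_eq_mul_div, div_le_div_iff₀ (by linarith) (by positivity)]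
  have hD0 : (0 : ℝ) ≤ ((2 ^ j : ℕ) : ℝ) := Nat.cast_nonneg _
  have := mul_le_mul_of_nonneg_left hkey hD0
  linarith

end Vale.Agent.P057.H465
end
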