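import Vale.Agent.P057.Bdl.B1

set_option linter.all false

section

open Finset

namespace Vale.Agent.P057.H465

open Vale.Agent.P057.Lower

theorem asy_mono {k D s : ℕ} {G G' : ℝ} (hG : 0 ≤ G) (hGG : G ≤ G') (h : Asy k D s G) :
    Asy k D s G' := by
  intro ε hε
  obtain ⟨N0, hN0⟩ := h ε hε
  refine ⟨N0, fun N hN => ?_⟩
  refine (hN0 N hN).mono ?_
  apply Real.exp_le_exp.2
  apply neg_le_neg
  have hlog : 0 ≤ Real.log N := Real.log_natCast_nonneg N
  apply mul_le_mul_of_nonneg_left _ (by positivity)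
  apply Real.rpow_le_rpow (mul_nonneg hG hlog) _ (by positivity)
  exact mul_le_mul_of_nonneg_right hGG hlog

theorem tower_aux (k n : ℕ) (hn : 2 ≤ n) (hk : 2 ^ (n - 1) < k) (c : ℕ → ℝ)
    (hc : ∀ j, j + 2 ≤ n → 0 < c j ∧ Cost k (2 ^ j) (c j)) :
    ∀ t, t + 1 ≤ n → 0 < (∏ j ∈ Finset.range t, (2 * c (n - 2 - j))) ∧
      Asy k (2 ^ (n - 1 - t)) (t + 1) (∏ j ∈ Finset.range t, (2 * c (n - 2 - j))) := by
  intro t
  induction t with
  | zero =>
    intro _
    simp only [Nat.sub_zero, zero_add, range_zero, prod_empty]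
    exact ⟨one_pos, base k _ Nat.one_le_two_pow hk⟩
  | succ t ih =>
    intro ht
    obtain ⟨hpos, h⟩ := ih (by omega)
    have e1 : 2 ^ (n - 1 - t) = 2 * 2 ^ (n - 1 - (t + 1)) := by
      rw [← pow_succ']
      congr 1
      omega
    rw [e1] at h
    have hlt : 2 ^ (n - 1 - (t + 1)) < k :=
      lt_of_le_of_lt (Nat.pow_le_pow_right (by norm_num) (by omega)) hk
    have e0 : n - 1 - (t + 1) = n - 2 - t := by omega
    obtain ⟨hc1, hc2⟩ := hc (n - 2 - t) (by omega)
    rw [← e0] at hc2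
    have hst := step k (2 ^ (n - 1 - (t + 1))) (t + 1) Nat.one_le_two_pow hlt (by omega)
      (c (n - 2 - t)) _ hc1 hpos (by rw [e0] at hc2 ⊢; exact hc2) h
    rw [Finset.prod_range_succ]
    refine ⟨mul_pos hpos (by linarith), ?_⟩
    rw [mul_comm]
    exact hst

/-- all levels with given costs -/
theorem tower (k n : ℕ) (hn : 2 ≤ n) (hk : 2 ^ (n - 1) < k) (c : ℕ → ℝ)
    (hc : ∀ j, j + 2 ≤ n → 0 < c j ∧ Cost k (2 ^ j) (c j)) :
    Asy k 1 n (∏ j ∈ Finset.range (n - 1), (2 * c j)) := by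
  have h := (tower_aux k n hn hk c hc (n - 1) (by omega)).2
  have e1 : n - 1 - (n - 1) = 0 := by omega
  have e2 : n - 1 + 1 = n := by omega
  rw [e1, e2, pow_zero] at h
  have e3 := Finset.prod_range_reflect (fun j => 2 * c j) (n - 1)
  have e4 : ∏ j ∈ Finset.range (n - 1), (2 * c (n - 2 - j)) =
      ∏ j ∈ Finset.range (n - 1), (2 * c j) := by
    rw [← e3]
    apply Finset.prod_congr rfl
    intro j hj
    have : n - 1 - 1 - j = n - 2 - j := by omega
    rw [this]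
  rw [e4] at h
  exact h

/-- the limit form -/
theorem tower_lim (H : ∀ θ : ℝ, 0 < θ → ∃ D0 K0 : ℕ, ∀ k, K0 ≤ k → ∀ D : ℕ, D0 ≤ D → D ^ 10 ≤ k →
      Cost k D (θ * D * Real.log 2)) (c : ℝ) (hc : 0 < c) :
    ∃ K : ℕ, ∀ k, K ≤ k → ∀ n, n = Nat.clog 2 k →
      2 ≤ n ∧ Asy k 1 n (c ^ n * 2 ^ (n * (n - 1) / 2) * Real.log 2 ^ (n - 1)) := by
  set c' : ℝ := min c 1 with hc'
  have hc0 : 0 < c' := lt_min hc one_pos
  have hc1 : c' ≤ 1 := min_le_right _ _
  have hcc : c' ≤ c := min_le_left _ _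
  obtain ⟨D0, K0, hH⟩ := H (c' ^ 20) (by positivity)
  refine ⟨max K0 (2 ^ (20 * D0 + 2)), fun k hk n hn => ?_⟩
  have hkK : K0 ≤ k := le_trans (le_max_left _ _) hk
  have hk2 : 2 ^ (20 * D0 + 2) ≤ k := le_trans (le_max_right _ _) hk
  have hnD : 20 * D0 + 2 ≤ n := by
    rw [hn]
    have h3 : k ≤ 2 ^ Nat.clog 2 k := Nat.le_pow_clog (by norm_num) k
    exact (Nat.pow_le_pow_iff_right (by norm_num : 1 < 2)).1 (le_trans hk2 h3)
  have hn2 : 2 ≤ n := by omega
  have hk4 : 1 < k := lt_of_lt_of_le (Nat.one_lt_two_pow (by omega)) hk2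
  have hlt : 2 ^ (n - 1) < k := by
    rw [hn]
    exact Nat.pow_pred_clog_lt_self (by norm_num) hk4
  refine ⟨hn2, ?_⟩
  have hlog : 0 < Real.log 2 := Real.log_pos (by norm_num)
  set g : ℕ → ℝ := fun j => if D0 ≤ j ∧ 10 * j ≤ n - 1 then c' ^ 20 else 1 with hg
  have hgpos : ∀ j, 0 < g j := by
    intro j
    simp only [hg]
    split_ifs
    · positivity
    · exact one_pos
  have hT := tower k n hn2 hlt (fun j => g j * ((2 ^ j : ℕ) : ℝ) * Real.log 2) (by
    intro j hj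
    refine ⟨by have := hgpos j; positivity, ?_⟩
    simp only [hg]
    split_ifs with hjj
    · have h1 : D0 ≤ 2 ^ j := le_trans hjj.1 (Nat.lt_two_pow_self).le
      have h2 : (2 ^ j) ^ 10 ≤ k := by
        rw [← pow_mul]
        refine le_trans (Nat.pow_le_pow_right (by norm_num) ?_) hlt.le
        omega
      exact hH k hkK (2 ^ j) h1 h2
    · rw [one_mul]
      exact cost_interval k (2 ^ j))
  have hprod : ∏ j ∈ Finset.range (n - 1), (2 * (g j * ((2 ^ j : ℕ) : ℝ) * Real.log 2)) =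
      (∏ j ∈ Finset.range (n - 1), g j) * (2 ^ (n * (n - 1) / 2) * Real.log 2 ^ (n - 1)) := by
    have e1 : ∀ j ∈ Finset.range (n - 1), (2 * (g j * ((2 ^ j : ℕ) : ℝ) * Real.log 2)) =
        g j * ((2 : ℝ) ^ (j + 1) * Real.log 2) := by
      intro j _
      push_cast
      ring
    rw [Finset.prod_congr rfl e1, Finset.prod_mul_distrib, Finset.prod_mul_distrib,
      Finset.prod_const, Finset.card_range, Finset.prod_pow_eq_pow_sum]
    congr 3
    have h2 : ∑ j ∈ Finset.range (n - 1), (j + 1) = ∑ j ∈ Finset.range n, j := by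
      have h4 : n = (n - 1) + 1 := by omega
      conv_rhs => rw [h4, Finset.sum_range_succ']
      simp only [add_zero]
    rw [h2, Finset.sum_range_id]
  rw [hprod] at hT
  refine asy_mono (by
    have : 0 ≤ ∏ j ∈ Finset.range (n - 1), g j := Finset.prod_nonneg fun j _ => (hgpos j).le
    positivity) ?_ hT
  rw [mul_assoc]
  apply mul_le_mul_of_nonneg_right _ (by positivity)
  -- the product of the gains
  have hsub : Finset.Ico D0 ((n - 1) / 10 + 1) ⊆ Finset.range (n - 1) := by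
    intro j hj
    rw [Finset.mem_Ico] at hj
    rw [Finset.mem_range]
    omega
  have hle : ∏ j ∈ Finset.range (n - 1), g j ≤ ∏ j ∈ Finset.Ico D0 ((n - 1) / 10 + 1), g j := by
    rw [← Finset.prod_sdiff hsub]
    have h1 : ∏ j ∈ Finset.range (n - 1) \ Finset.Ico D0 ((n - 1) / 10 + 1), g j ≤ 1 := by
      apply Finset.prod_le_one (fun j _ => (hgpos j).le)
      intro j _
      simp only [hg]
      split_ifs
      · exact pow_le_one₀ hc0.le hc1
      · exact le_rfl
    have h2 : 0 ≤ ∏ j ∈ Finset.Ico D0 ((n - 1) / 10 + 1), g j :=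
      Finset.prod_nonneg fun j _ => (hgpos j).le
    calc _ ≤ 1 * ∏ j ∈ Finset.Ico D0 ((n - 1) / 10 + 1), g j :=
          mul_le_mul_of_nonneg_right h1 h2
      _ = _ := one_mul _
  refine hle.trans ?_
  have hconst : ∏ j ∈ Finset.Ico D0 ((n - 1) / 10 + 1), g j =
      (c' ^ 20) ^ ((n - 1) / 10 + 1 - D0) := by
    rw [Finset.prod_congr rfl (g := fun _ => c' ^ 20), Finset.prod_const, Nat.card_Ico]
    intro j hj
    rw [Finset.mem_Ico] at hj
    simp only [hg]
    rw [if_pos]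
    constructor <;> omega
  rw [hconst, ← pow_mul]
  calc c' ^ (20 * ((n - 1) / 10 + 1 - D0)) ≤ c' ^ n :=
        pow_le_pow_of_le_one hc0.le hc1 (by omega)
    _ ≤ c ^ n := pow_le_pow_left₀ hc0.le hcc n

end Vale.Agent.P057.H465
end
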